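import Vale.Agent.P322.Main

/-!
# The Courtade-Kumar conjecture

For every Boolean function `f` on `{-1,1}^n` and every crossover probability `ε ∈ [0,1/2]`,
`I(f(X);Y) ≤ 1 - h₂(ε)`.
-/

namespace Vale.Agent.Results.P322.CourtadeKumar

open Vale.Agent.P322

theorem result {n : ℕ} (f : (Fin n → ℤˣ) → ℤˣ) {ε : ℝ} (h0 : 0 ≤ ε) (h1 : ε ≤ 1 / 2) :
    mutualInfo (jointLaw f ε) ≤ 1 - h₂ ε :=
  Channel.ck_of_nats (fun g hg _ h0 h1 => main_nats g hg h0 h1) f h0 h1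

end Vale.Agent.Results.P322.CourtadeKumar
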